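import Vale.Agent.P076.H819.KerE

/-! # P076 / H780 : (N1) trivial bound, one point per unit cube (helper780) -/

open MeasureTheory Complex Set
open scoped FourierTransform ENNReal

namespace Vale.Agent.P076.H780

open Vale.Agent.P076 Vale.Agent.P076.H819

/-! ## modulation -/

/-- modulation by the free evolution up to time `s` -/
noncomputable def md (s : ℝ) (G : E 2 → ℂ) (η : E 2) : ℂ := cexp (2 * Real.pi * I * ((-(s * ‖η‖ ^ 2) : ℝ) : ℂ)) * G η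

theorem norm_md (s : ℝ) (G : E 2 → ℂ) (η : E 2) : ‖md s G η‖ = ‖G η‖ := by
  unfold md
  rw [norm_mul]
  have : ‖cexp (2 * Real.pi * I * ((-(s * ‖η‖ ^ 2) : ℝ) : ℂ))‖ = 1 := by
    have h : (2 * Real.pi * I * ((-(s * ‖η‖ ^ 2) : ℝ) : ℂ)) = ((2 * Real.pi * (-(s * ‖η‖ ^ 2)) : ℝ) : ℂ) * I := by
      push_cast; ring
    rw [h, Complex.norm_exp_ofReal_mul_I]
  rw [this, one_mul]

theorem md_ne {s : ℝ} {G : E 2 → ℂ} {η : E 2} (h : md s G η ≠ 0) : G η ≠ 0 := by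
  intro h0; apply h; unfold md; rw [h0, mul_zero]

theorem measurable_md (s : ℝ) {G : E 2 → ℂ} (hG : Measurable G) : Measurable (md s G) := by
  unfold md
  refine Measurable.mul ?_ hG
  fun_prop

theorem evo_md (G : E 2 → ℂ) (x : E 2) (t s : ℝ) : evo (md s G) x t 0 = evo G x (t + s) 0 := by
  unfold evo md
  congr 1; ext η
  rw [← mul_assoc, ← Complex.exp_add]
  congr 2
  push_cast; ring

/-! ## Plancherel -/

theorem lp_norm_sq (f : Lp ℂ 2 (volume : Measure (E 2))) : ‖f‖ ^ 2 = ∫ x, ‖f x‖ ^ 2 := by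
  have h := L2.inner_def (𝕜 := ℂ) f f
  rw [inner_self_eq_norm_sq_to_K] at h
  have h2 : ∫ x, inner ℂ (f x) (f x) = ((∫ x, ‖f x‖ ^ 2 : ℝ) : ℂ) := by
    rw [← integral_complex_ofReal]
    congr 1
    ext x
    rw [inner_self_eq_norm_sq_to_K]
    push_cast
    rfl
  rw [h2] at h
  have h3 : (((‖f‖ ^ 2 : ℝ)) : ℂ) = ((∫ x, ‖f x‖ ^ 2 : ℝ) : ℂ) := by
    rw [← h]; push_cast; rfl
  exact_mod_cast h3

theorem planch {G : E 2 → ℂ} (h1 : Integrable G) (h2 : MemLp G 2) :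
    Integrable (fun x => ‖(𝓕⁻ G : E 2 → ℂ) x‖ ^ 2) ∧ ∫ x, ‖(𝓕⁻ G : E 2 → ℂ) x‖ ^ 2 = ∫ η, ‖G η‖ ^ 2 := by
  have e0 : MemLp (𝓕⁻ G : E 2 → ℂ) 2 :=
    (Lp.memLp (𝓕⁻ (h2.toLp G) : Lp ℂ 2 (volume : Measure (E 2)))).ae_eq (fourierInv_L2_ae_eq h1 h2)
  refine ⟨e0.integrable_norm_pow (by norm_num), ?_⟩
  have e1 : ∫ x, ‖(𝓕⁻ G : E 2 → ℂ) x‖ ^ 2 = ‖(𝓕⁻ (h2.toLp G) : Lp ℂ 2 (volume : Measure (E 2)))‖ ^ 2 := by
    rw [lp_norm_sq]
    refine integral_congr_ae ?_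
    filter_upwards [fourierInv_L2_ae_eq h1 h2] with x hx
    rw [hx]
  have e2 : ‖(𝓕⁻ (h2.toLp G) : Lp ℂ 2 (volume : Measure (E 2)))‖ = ‖h2.toLp G‖ := by
    rw [← Lp.norm_fourier_eq, FourierTransform.fourier_fourierInv_eq]
  have e3 : ‖h2.toLp G‖ ^ 2 = ∫ η, ‖G η‖ ^ 2 := by
    rw [lp_norm_sq]
    refine integral_congr_ae ?_
    filter_upwards [h2.coeFn_toLp] with x hx
    rw [hx]
  rw [e1, e2, e3]

/-! ## the lattice sum -/

/-- the one dimensional weight -/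
noncomputable def w1 (m : ℤ) : ℝ := 4 * ((1 + |(m : ℝ)|) ^ 2)⁻¹

theorem w1_nonneg (m : ℤ) : 0 ≤ w1 m := by unfold w1; positivity

theorem w1_summable : Summable w1 := by
  unfold w1
  refine Summable.mul_left 4 ?_
  have h : Summable fun n : ℤ => 1 / (n : ℝ) ^ 2 := Real.summable_one_div_int_pow.2 (by norm_num)
  refine Summable.of_norm_bounded_eventually h ?_
  rw [Filter.eventually_cofinite]
  refine (Set.finite_singleton (0 : ℤ)).subset ?_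
  intro n hn
  by_contra h0
  apply hn
  have h1 : (n : ℝ) ≠ 0 := by simpa using h0
  rw [Real.norm_eq_abs, abs_of_nonneg (by positivity), one_div, ← sq_abs (n : ℝ)]
  have h2 : 0 < |(n : ℝ)| := abs_pos.2 h1
  gcongr
  linarith

theorem w1_le (x y : ℝ) : ((1 + |x - y|) ^ 2)⁻¹ ≤ w1 (⌊x⌋ - ⌊y⌋) := by
  unfold w1
  have h1 : |((⌊x⌋ - ⌊y⌋ : ℤ) : ℝ)| ≤ 1 + |x - y| := by
    push_cast
    have a1 := Int.floor_le x
    have a2 := Int.lt_floor_add_one x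
    have a3 := Int.floor_le y
    have a4 := Int.lt_floor_add_one y
    rw [abs_le]
    have b1 := le_abs_self (x - y)
    have b2 := neg_abs_le (x - y)
    constructor <;> linarith
  have h0 := abs_nonneg (x - y)
  have h2 : 1 + |((⌊x⌋ - ⌊y⌋ : ℤ) : ℝ)| ≤ 2 * (1 + |x - y|) := by linarith
  have h3 : ((1 + |((⌊x⌋ - ⌊y⌋ : ℤ) : ℝ)|) ^ 2) ≤ 4 * (1 + |x - y|) ^ 2 := by
    calc _ ≤ (2 * (1 + |x - y|)) ^ 2 := by gcongr
      _ = _ := by ring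
  have h4 : 0 < (1 + |((⌊x⌋ - ⌊y⌋ : ℤ) : ℝ)|) ^ 2 := by positivity
  have h5 : 0 < (1 + |x - y|) ^ 2 := by positivity
  rw [← div_eq_mul_inv, inv_eq_one_div, div_le_div_iff₀ h5 h4]
  linarith

theorem w4_le (v : E 2) : (1 + ‖v‖) ^ (-(4 : ℝ)) ≤ ((1 + |v 0|) ^ 2)⁻¹ * ((1 + |v 1|) ^ 2)⁻¹ := by
  have h0 : |v 0| ≤ ‖v‖ := by have := PiLp.norm_apply_le v 0; rwa [Real.norm_eq_abs] at this
  have h1 : |v 1| ≤ ‖v‖ := by have := PiLp.norm_apply_le v 1; rwa [Real.norm_eq_abs] at this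
  have a0 := abs_nonneg (v 0)
  have a1 := abs_nonneg (v 1)
  have hn : 0 ≤ ‖v‖ := norm_nonneg v
  have e : (1 + ‖v‖) ^ (-(4 : ℝ)) = (((1 + ‖v‖) ^ 2) * ((1 + ‖v‖) ^ 2))⁻¹ := by
    rw [Real.rpow_neg (by linarith), ← pow_add]
    norm_num
  rw [e, ← mul_inv]
  gcongr

/-- **lattice sum**: one point per unit square -/
theorem lat_sum {ι : Type*} (A : Finset ι) (x : ι → E 2) (hx : ∀ i ∈ A, ∀ j ∈ A, (∀ k, ⌊x i k⌋ = ⌊x j k⌋) → i = j) (y : E 2) :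
    ∑ i ∈ A, (1 + ‖x i - y‖) ^ (-(4 : ℝ)) ≤ (∑' m, w1 m) ^ 2 := by
  set f : ι → ℤ × ℤ := fun i => (⌊x i 0⌋ - ⌊y 0⌋, ⌊x i 1⌋ - ⌊y 1⌋) with hf
  have hinj : Set.InjOn f A := by
    intro i hi j hj h
    rw [hf] at h
    simp only [Prod.mk.injEq] at h
    refine hx i hi j hj fun k => ?_
    fin_cases k
    · have := h.1; simp only [Fin.zero_eta, Fin.isValue]; omega
    · have := h.2; simp only [Fin.mk_one, Fin.isValue]; omega
  calc ∑ i ∈ A, (1 + ‖x i - y‖) ^ (-(4 : ℝ)) ≤ ∑ i ∈ A, w1 (f i).1 * w1 (f i).2 := by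
        refine Finset.sum_le_sum fun i _ => ?_
        refine (w4_le _).trans ?_
        have h1 := w1_le (x i 0) (y 0)
        have h2 := w1_le (x i 1) (y 1)
        simp only [PiLp.sub_apply]
        exact mul_le_mul h1 h2 (by positivity) (w1_nonneg _)
    _ = ∑ p ∈ A.image f, w1 p.1 * w1 p.2 := by rw [Finset.sum_image hinj]
    _ ≤ ∑ p ∈ ((A.image f).image Prod.fst) ×ˢ ((A.image f).image Prod.snd), w1 p.1 * w1 p.2 := by
        refine Finset.sum_le_sum_of_subset_of_nonneg ?_ fun p _ _ => mul_nonneg (w1_nonneg _) (w1_nonneg _)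
        intro p hp
        rw [Finset.mem_product]
        exact ⟨Finset.mem_image_of_mem _ hp, Finset.mem_image_of_mem _ hp⟩
    _ = (∑ m ∈ (A.image f).image Prod.fst, w1 m) * ∑ m ∈ (A.image f).image Prod.snd, w1 m := by
        rw [Finset.sum_product, Finset.sum_mul_sum]
    _ ≤ (∑' m, w1 m) * (∑' m, w1 m) := by
        refine mul_le_mul (w1_summable.sum_le_tsum _ fun m _ => w1_nonneg m)
          (w1_summable.sum_le_tsum _ fun m _ => w1_nonneg m) (Finset.sum_nonneg fun m _ => w1_nonneg m)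
          (tsum_nonneg w1_nonneg)
    _ = _ := by ring

/-! ## one time slab -/

theorem one_slab : ∃ C : ℝ, 0 ≤ C ∧ ∀ (G : E 2 → ℂ), Measurable G → (∃ b : ℝ, ∀ η, ‖G η‖ ≤ b) →
    (∀ η, G η ≠ 0 → ∀ i, |η i| ≤ 1) → ∀ {ι : Type} (A : Finset ι) (x : ι → E 2) (t : ι → ℝ) (s : ℝ),
      (∀ i ∈ A, |t i - s| ≤ 1) → (∀ i ∈ A, ∀ j ∈ A, (∀ k, ⌊x i k⌋ = ⌊x j k⌋) → i = j) →
        ∑ i ∈ A, ‖evo G (x i) (t i) 0‖ ^ 2 ≤ C * ∫ η, ‖G η‖ ^ 2 := by
  obtain ⟨C, hC, K⟩ := kernel_asm 4 1 (by norm_num) (by norm_num)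
  refine ⟨C * (∑' m, w1 m) ^ 2, by positivity, ?_⟩
  intro G hm hb hs ι A x t s ht hx
  have hb' : ∃ b : ℝ, ∀ η, ‖md s G η‖ ≤ b := by
    obtain ⟨b, hb⟩ := hb; exact ⟨b, fun η => by rw [norm_md]; exact hb η⟩
  have hs' : ∀ η, md s G η ≠ 0 → ∀ i, |η i - (0 : E 2) i| ≤ 1 / 1 := by
    intro η hη i
    have := hs η (md_ne hη) i
    simpa using this
  have hmm := measurable_md s hm
  obtain ⟨hi, h2⟩ := int_of_bdd hmm hb' hs'
  obtain ⟨hsq, hpl⟩ := planch hi h2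
  set g : E 2 → ℝ := fun y => ‖(𝓕⁻ (md s G) : E 2 → ℂ) y‖ ^ 2 with hg
  have h1 : ∀ i ∈ A, ‖evo G (x i) (t i) 0‖ ^ 2 ≤ C * ∫ y : E 2, g y * (1 + ‖x i - y‖) ^ (-(4 : ℝ)) := by
    intro i hiA
    have h := K 1 0 (md s G) one_pos hmm hb' hs' (x i) (t i - s) (by simpa using ht i hiA)
    rw [evo_md] at h
    simpa using h
  have hint : ∀ i ∈ A, Integrable fun y : E 2 => g y * (1 + ‖x i - y‖) ^ (-(4 : ℝ)) := by
    intro i _
    refine hsq.mono' ?_ ?_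
    · refine hsq.aestronglyMeasurable.mul ?_
      refine Measurable.aestronglyMeasurable ?_
      fun_prop
    · filter_upwards with y
      have h0 : (1 + ‖x i - y‖) ^ (-(4 : ℝ)) ≤ 1 :=
        Real.rpow_le_one_of_one_le_of_nonpos (by have := norm_nonneg (x i - y); linarith) (by norm_num)
      have h1 : 0 ≤ (1 + ‖x i - y‖) ^ (-(4 : ℝ)) := by positivity
      have h2 : 0 ≤ g y := by rw [hg]; positivity
      rw [Real.norm_eq_abs, abs_of_nonneg (mul_nonneg h2 h1)]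
      exact mul_le_of_le_one_right h2 h0
  calc ∑ i ∈ A, ‖evo G (x i) (t i) 0‖ ^ 2 ≤ ∑ i ∈ A, C * ∫ y : E 2, g y * (1 + ‖x i - y‖) ^ (-(4 : ℝ)) :=
        Finset.sum_le_sum h1
    _ = C * ∫ y : E 2, ∑ i ∈ A, g y * (1 + ‖x i - y‖) ^ (-(4 : ℝ)) := by
        rw [← Finset.mul_sum, integral_finsetSum _ hint]
    _ ≤ C * ∫ y : E 2, g y * (∑' m, w1 m) ^ 2 := by
        refine mul_le_mul_of_nonneg_left ?_ hC
        refine integral_mono (integrable_finsetSum _ hint) (hsq.mul_const _) fun y => ?_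
        simp only []
        rw [← Finset.mul_sum]
        exact mul_le_mul_of_nonneg_left (lat_sum A x hx y) (by rw [hg]; positivity)
    _ = C * (∑' m, w1 m) ^ 2 * ∫ η, ‖G η‖ ^ 2 := by
        rw [integral_mul_const, hpl]
        simp_rw [norm_md]
        ring

/-- **(N1)** trivial bound: points in `ℝ² × [0, R]`, at most one in each unit cube -/
theorem triv : ∃ C : ℝ, 0 ≤ C ∧ ∀ {ι : Type} (R : ℝ) (G : E 2 → ℂ) (A : Finset ι) (x : ι → E 2) (t : ι → ℝ), 1 ≤ R →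
    Measurable G → (∃ b : ℝ, ∀ η, ‖G η‖ ≤ b) → (∀ η, G η ≠ 0 → ∀ i, |η i| ≤ 1) →
      (∀ i ∈ A, 0 ≤ t i) → (∀ i ∈ A, t i ≤ R) →
        (∀ i ∈ A, ∀ j ∈ A, (∀ k, ⌊x i k⌋ = ⌊x j k⌋) → ⌊t i⌋ = ⌊t j⌋ → i = j) →
          ∑ i ∈ A, ‖evo G (x i) (t i) 0‖ ^ 2 ≤ C * R * ∫ η, ‖G η‖ ^ 2 := by
  obtain ⟨C, hC, K⟩ := one_slab
  refine ⟨2 * C, by positivity, ?_⟩
  intro ι R G A x t hR hm hb hs h0 h1 hx
  have hmaps : ∀ i ∈ A, ⌊t i⌋ ∈ Finset.Icc (0 : ℤ) ⌊R⌋ := by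
    intro i hi
    rw [Finset.mem_Icc]
    exact ⟨Int.floor_nonneg.2 (h0 i hi), Int.floor_le_floor (h1 i hi)⟩
  rw [← Finset.sum_fiberwise_of_maps_to hmaps]
  have hG : 0 ≤ ∫ η, ‖G η‖ ^ 2 := integral_nonneg fun η => by positivity
  calc ∑ n ∈ Finset.Icc (0 : ℤ) ⌊R⌋, ∑ i ∈ A with ⌊t i⌋ = n, ‖evo G (x i) (t i) 0‖ ^ 2
      ≤ ∑ n ∈ Finset.Icc (0 : ℤ) ⌊R⌋, C * ∫ η, ‖G η‖ ^ 2 := by
        refine Finset.sum_le_sum fun n _ => ?_
        refine K G hm hb hs _ x t n ?_ ?_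
        · intro i hi
          rw [Finset.mem_filter] at hi
          rw [← hi.2, abs_le]
          have a1 := Int.floor_le (t i)
          have a2 := Int.lt_floor_add_one (t i)
          constructor <;> linarith
        · intro i hi j hj hk
          rw [Finset.mem_filter] at hi hj
          exact hx i hi.1 j hj.1 hk (by rw [hi.2, hj.2])
    _ = (⌊R⌋ + 1 : ℤ).toNat * (C * ∫ η, ‖G η‖ ^ 2) := by
        rw [Finset.sum_const, nsmul_eq_mul, Int.card_Icc, sub_zero]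
    _ ≤ (2 * R) * (C * ∫ η, ‖G η‖ ^ 2) := by
        refine mul_le_mul_of_nonneg_right ?_ (by positivity)
        have hf : 0 ≤ ⌊R⌋ + 1 := by have := Int.floor_nonneg.2 (by linarith : (0 : ℝ) ≤ R); omega
        have : ((⌊R⌋ + 1 : ℤ).toNat : ℝ) = ((⌊R⌋ + 1 : ℤ) : ℝ) := by
          exact_mod_cast Int.toNat_of_nonneg hf
        rw [this]
        push_cast
        have := Int.floor_le R
        linarith
    _ = 2 * C * R * ∫ η, ‖G η‖ ^ 2 := by ring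

end Vale.Agent.P076.H780
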