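import Vale.Agent.P076.H879.Defs

/-! # P076 / H780 : the two outputs of NS.KP (helper926, board #5601) consumed by the induction on the number of levels -/

set_option autoImplicit false

open Vale.Agent.P076.H879 Vale.Agent.P076.NS

namespace Vale.Agent.P076.H780

/-- (T1) base case -/
def StKP1 : Prop := ∀ (c1 C0 : ℝ) (k M : ℕ), 0 ≤ c1 → c1 ≤ 1 / 6 → 1 ≤ C0 → 2 ≤ k → 70 ≤ M →
  ∃ C : ℝ, 0 ≤ C ∧ ∀ n j N : ℕ, Claim c1 C0 M k n j N (C * 2 ^ (20 * k * n : ℝ))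

/-- (T2) the broad case -/
def StKP2 : Prop := ∃ c1 : ℝ, 0 < c1 ∧ c1 ≤ 1 / 6 ∧ ∀ J : ℕ, ∃ K0 : ℕ, ∀ k : ℕ, K0 ≤ k → ∃ M0 : ℕ, ∀ M : ℕ, M0 ≤ M →
  ∀ C0 c : ℝ, 1 ≤ C0 → 0 < c → ∃ C : ℝ, 0 ≤ C ∧ ∀ n N j : ℕ, j ≤ J → Broad c1 C0 c M k n j N C

end Vale.Agent.P076.H780
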