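import Vale.Agent.P076.H780.KpDefs
import Vale.Agent.P076.H322.STDefs

/-! # P076 / H780 : induction on the number of levels: `StKP1 → StKP2 → StSTEP → StKPG` (helper780) -/

set_option autoImplicit false

open Filter Topology
open Vale.Agent.P076.H879 Vale.Agent.P076.NS

namespace Vale.Agent.P076.H780

theorem Est_mono {c1 : ℝ} {k n : ℕ} {g Y γ β b A A'} (hγ : 0 < γ) (hb : 0 < b) (hA : A ≤ A') (h : Est c1 k n g Y γ β b A) :
    Est c1 k n g Y γ β b A' := by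
  unfold Est at *
  refine h.trans ?_
  gcongr

theorem Claim_mono {c1 C0 : ℝ} {M k n j N : ℕ} {A A' : ℝ} (hA : A ≤ A') (h : Claim c1 C0 M k n j N A) :
    Claim c1 C0 M k n j N A' := fun g Y G γ β b H => Est_mono H.γ0 H.b0 hA (h g Y G γ β b H)

theorem Broad_mono {c1 C0 c : ℝ} {M k n j N : ℕ} {A A' : ℝ} (hA : A ≤ A') (h : Broad c1 C0 c M k n j N A) :
    Broad c1 C0 c M k n j N A' := fun g Y G γ β b H hB => Est_mono H.γ0 H.b0 hA (h g Y G γ β b H hB)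

theorem pow_le_two_pow (p : ℕ) : ∃ C : ℝ, 0 ≤ C ∧ ∀ n : ℕ, (n : ℝ) ^ p ≤ C * 2 ^ n := by
  have h := tendsto_pow_const_div_const_pow_of_one_lt p (r := (2 : ℝ)) (by norm_num)
  obtain ⟨C, hC⟩ := h.bddAbove_range
  refine ⟨max C 0, le_max_right _ _, fun n => ?_⟩
  have h1 : (n : ℝ) ^ p / 2 ^ n ≤ C := hC ⟨n, rfl⟩
  have h2 : (0 : ℝ) < 2 ^ n := by positivity
  rw [div_le_iff₀ h2] at h1
  refine h1.trans ?_
  gcongr
  exact le_max_left _ _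

/-- the induction for fixed `K`, `M`, `C0`, `n` -/
theorem climb {c1 C0 c ε Cs Ab AT : ℝ} {M N K k0 n j : ℕ} (hk0 : 2 ≤ k0) (hjK : j ≤ K) (hn : 1 ≤ n)
    (hCs : 1 ≤ Cs) (hc1 : 0 ≤ c1) (hAb : 0 ≤ Ab) (hAT : 0 ≤ AT) (hcε : 0 ≤ 2 * c + ε)
    (hbase : ∀ j', Claim c1 C0 M k0 n j' N AT)
    (hstep : ∀ (k n j : ℕ) (A' Ab : ℝ), 3 ≤ k → j ≤ k → 1 ≤ n → 0 ≤ A' → 0 ≤ Ab → Claim c1 C0 M (k - 1) n (j - 1) N A' →
      Broad c1 C0 c M k n j N Ab → Claim c1 C0 M k n j N (Cs * (n:ℝ) ^ (4 + c1) * 2 ^ ((2 * c + ε) * (1 + c1) * n) * A' + Ab))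
    (hbroad : ∀ k, k0 < k → k ≤ K → Broad c1 C0 c M k n (j - (K - k)) N Ab) :
    ∀ i : ℕ, k0 + i ≤ K → Claim c1 C0 M (k0 + i) n (j - (K - (k0 + i))) N
      ((Cs * (n:ℝ) ^ (4 + c1) * 2 ^ ((2 * c + ε) * (1 + c1) * n)) ^ i * (AT + i * Ab)) := by
  set X : ℝ := Cs * (n:ℝ) ^ (4 + c1) * 2 ^ ((2 * c + ε) * (1 + c1) * n) with hX
  have hn1 : (1 : ℝ) ≤ n := by exact_mod_cast hn
  have hX1 : 1 ≤ X := by
    have h1 : (1 : ℝ) ≤ (n:ℝ) ^ (4 + c1) := Real.one_le_rpow hn1 (by linarith)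
    have h2 : (1 : ℝ) ≤ 2 ^ ((2 * c + ε) * (1 + c1) * n) := Real.one_le_rpow (by norm_num) (by positivity)
    calc (1 : ℝ) = 1 * 1 * 1 := by ring
      _ ≤ X := by rw [hX]; gcongr
  intro i
  induction i with
  | zero =>
    intro _
    have := hbase (j - (K - (k0 + 0)))
    simpa using this
  | succ i ih =>
    intro hi
    have h1 := ih (by omega)
    have h2 := hbroad (k0 + (i + 1)) (by omega) hi
    have e1 : k0 + (i + 1) - 1 = k0 + i := by omega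
    have e2 : j - (K - (k0 + (i + 1))) - 1 = j - (K - (k0 + i)) := by omega
    have h3 := hstep (k0 + (i + 1)) n (j - (K - (k0 + (i + 1)))) (X ^ i * (AT + i * Ab)) Ab (by omega) (by omega) hn
      (by positivity) hAb (by rw [e1, e2]; exact h1) h2
    refine Claim_mono ?_ h3
    have hXi : 1 ≤ X ^ (i + 1) := one_le_pow₀ hX1
    calc X * (X ^ i * (AT + i * Ab)) + Ab = X ^ (i + 1) * (AT + i * Ab) + 1 * Ab := by ring
      _ ≤ X ^ (i + 1) * (AT + i * Ab) + X ^ (i + 1) * Ab := by gcongr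
      _ = X ^ (i + 1) * (AT + ((i + 1 : ℕ) : ℝ) * Ab) := by push_cast; ring

theorem kpg_of (h1 : StKP1) (h2 : StKP2) (hS : StSTEP) : H322.StKPG := by
  obtain ⟨c1, hc1, hc16, H2⟩ := h2
  obtain ⟨Ka, hKa⟩ := H2 0
  set k0 : ℕ := max 2 Ka with hk0
  refine ⟨20 * k0 + 2, c1, hc1, fun j => ?_⟩
  obtain ⟨Kb, hKb⟩ := H2 j
  refine ⟨max k0 Kb + j + 1, fun K hK => ?_⟩
  have hK1 : 1 ≤ K := by omega
  -- the broad case at every level
  have hlev : ∀ k : ℕ, ∃ M0 : ℕ, ∀ M : ℕ, M0 ≤ M → ∀ C0 c : ℝ, 1 ≤ C0 → 0 < c → ∃ C : ℝ, 0 ≤ C ∧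
      ∀ n N : ℕ, k0 < k → k ≤ K → Broad c1 C0 c M k n (j - (K - k)) N C := by
    intro k
    by_cases hk : k0 < k ∧ k ≤ K
    · by_cases hj : j ≤ K - k
      · obtain ⟨M0, hM0⟩ := hKa k (by have := le_max_right 2 Ka; omega)
        refine ⟨M0, fun M hM C0 c hC0 hc => ?_⟩
        obtain ⟨C, hC, h⟩ := hM0 M hM C0 c hC0 hc
        exact ⟨C, hC, fun n N _ _ => h n N _ (by omega)⟩
      · obtain ⟨M0, hM0⟩ := hKb k (by have := le_max_right k0 Kb; omega)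
        refine ⟨M0, fun M hM C0 c hC0 hc => ?_⟩
        obtain ⟨C, hC, h⟩ := hM0 M hM C0 c hC0 hc
        exact ⟨C, hC, fun n N _ _ => h n N _ (by omega)⟩
    · exact ⟨0, fun M _ C0 c _ _ => ⟨0, le_rfl, fun n N h h' => absurd ⟨h, h'⟩ hk⟩⟩
  choose M0f hM0f using hlev
  refine ⟨max 70 (∑ k ∈ Finset.range (K + 1), M0f k), fun M hM C0 hC0 => ?_⟩
  have hM70 : 70 ≤ M := (le_max_left _ _).trans hM
  have hMk : ∀ k ≤ K, M0f k ≤ M := fun k hk =>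
    ((Finset.single_le_sum (f := M0f) (fun _ _ => Nat.zero_le _) (Finset.mem_range.2 (by omega))).trans
      (le_max_right _ _)).trans hM
  set c : ℝ := 1 / (4 * K) with hc
  have hKr : (1 : ℝ) ≤ K := by exact_mod_cast hK1
  have hcpos : 0 < c := by rw [hc]; positivity
  have hcK : c * K = 1 / 4 := by rw [hc]; field_simp
  have hcle : c ≤ 1 / 4 := by
    rw [hc]
    rw [div_le_div_iff₀ (by positivity) (by norm_num)]
    linarith
  -- constants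
  obtain ⟨Cs, hCs, hstep⟩ := hS c1 C0 c c M 27 hc1.le hC0 hcpos hcpos (by linarith) (by omega) (by norm_num)
  obtain ⟨CT, hCT, hT⟩ := h1 c1 C0 k0 M hc1.le hc16 hC0 (le_max_left _ _) hM70
  have hbr : ∀ k : ℕ, ∃ C : ℝ, 0 ≤ C ∧ (k ≤ K → ∀ n N : ℕ, k0 < k → k ≤ K → Broad c1 C0 c M k n (j - (K - k)) N C) := by
    intro k
    by_cases hk : k ≤ K
    · obtain ⟨C, hC, h⟩ := hM0f k M (hMk k hk) C0 c hC0 hcpos
      exact ⟨C, hC, fun _ => h⟩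
    · exact ⟨0, le_rfl, fun h => absurd h hk⟩
  choose Cb hCb0 hCb using hbr
  set Ab : ℝ := ∑ k ∈ Finset.range (K + 1), Cb k with hAb
  have hAb0 : 0 ≤ Ab := Finset.sum_nonneg fun k _ => hCb0 k
  obtain ⟨Cp, hCp, hpow⟩ := pow_le_two_pow (5 * K)
  refine ⟨Cs ^ K * Cp * (CT + K * Ab), by positivity, fun n hn => ?_⟩
  have hn1 : (1 : ℝ) ≤ n := by exact_mod_cast hn
  have hkey := climb (c1 := c1) (C0 := C0) (c := c) (ε := c) (Cs := Cs) (Ab := Ab) (AT := CT * 2 ^ (20 * k0 * n : ℝ)) (M := M)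
    (N := 27) (K := K) (k0 := k0) (n := n) (j := j) (le_max_left _ _) (by omega) hn hCs hc1.le hAb0 (by positivity)
    (by linarith) (fun j' => hT n j' 27) hstep
    (fun k hk hk' => Broad_mono (Finset.single_le_sum (f := Cb) (fun _ _ => hCb0 _) (Finset.mem_range.2 (by omega)))
      (hCb k hk' n 27 hk hk')) (K - k0) (by omega)
  have e1 : k0 + (K - k0) = K := by omega
  rw [e1, Nat.sub_self, Nat.sub_zero] at hkey
  refine Claim_mono ?_ hkey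
  -- arithmetic
  set X : ℝ := Cs * (n:ℝ) ^ (4 + c1) * 2 ^ ((2 * c + c) * (1 + c1) * n) with hX
  have hX1 : 1 ≤ X := by
    have h1 : (1 : ℝ) ≤ (n:ℝ) ^ (4 + c1) := Real.one_le_rpow hn1 (by linarith)
    have h2 : (1 : ℝ) ≤ 2 ^ ((2 * c + c) * (1 + c1) * n) := Real.one_le_rpow (by norm_num) (by positivity)
    calc (1 : ℝ) = 1 * 1 * 1 := by ring
      _ ≤ X := by rw [hX]; gcongr
  have hXK : X ^ K ≤ Cs ^ K * Cp * 2 ^ (2 * n : ℝ) := by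
    rw [hX, mul_pow, mul_pow]
    have a1 : ((n:ℝ) ^ (4 + c1)) ^ K ≤ Cp * 2 ^ n := by
      calc ((n:ℝ) ^ (4 + c1)) ^ K ≤ ((n:ℝ) ^ (5 : ℝ)) ^ K := by
            gcongr
            linarith
        _ = (n:ℝ) ^ (5 * K) := by
            rw [← Real.rpow_natCast, ← Real.rpow_mul (by positivity), ← Real.rpow_natCast]
            push_cast; rfl
        _ ≤ Cp * 2 ^ n := hpow n
    have a2 : ((2:ℝ) ^ ((2 * c + c) * (1 + c1) * n)) ^ K ≤ 2 ^ (n : ℝ) := by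
      rw [← Real.rpow_natCast, ← Real.rpow_mul (by norm_num)]
      refine Real.rpow_le_rpow_of_exponent_le (by norm_num) ?_
      calc (2 * c + c) * (1 + c1) * n * K = 3 * (c * K) * (1 + c1) * n := by ring
        _ = 3 / 4 * (1 + c1) * n := by rw [hcK]; ring
        _ ≤ 1 * n := by gcongr; linarith
        _ = n := one_mul _
    calc Cs ^ K * ((n:ℝ) ^ (4 + c1)) ^ K * ((2:ℝ) ^ ((2 * c + c) * (1 + c1) * n)) ^ K
        ≤ Cs ^ K * (Cp * 2 ^ n) * 2 ^ (n : ℝ) := by gcongr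
      _ = Cs ^ K * Cp * 2 ^ (2 * n : ℝ) := by
          rw [two_mul, Real.rpow_add (by norm_num), Real.rpow_natCast]; ring
  have hsum : CT * 2 ^ (20 * k0 * n : ℝ) + ((K - k0 : ℕ) : ℝ) * Ab ≤ (CT + K * Ab) * 2 ^ (20 * k0 * n : ℝ) := by
    have h1 : (1 : ℝ) ≤ 2 ^ (20 * k0 * n : ℝ) := Real.one_le_rpow (by norm_num) (by positivity)
    have h2 : ((K - k0 : ℕ) : ℝ) ≤ K := by exact_mod_cast Nat.sub_le K k0
    calc CT * 2 ^ (20 * k0 * n : ℝ) + ((K - k0 : ℕ) : ℝ) * Ab ≤ CT * 2 ^ (20 * k0 * n : ℝ) + K * Ab * 1 := by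
          rw [mul_one]; gcongr
      _ ≤ CT * 2 ^ (20 * k0 * n : ℝ) + K * Ab * 2 ^ (20 * k0 * n : ℝ) := by gcongr
      _ = _ := by ring
  calc X ^ (K - k0) * (CT * 2 ^ (20 * k0 * n : ℝ) + ((K - k0 : ℕ) : ℝ) * Ab)
      ≤ X ^ K * ((CT + K * Ab) * 2 ^ (20 * k0 * n : ℝ)) := by
        gcongr
        omega
    _ ≤ (Cs ^ K * Cp * 2 ^ (2 * n : ℝ)) * ((CT + K * Ab) * 2 ^ (20 * k0 * n : ℝ)) := by gcongr
    _ = Cs ^ K * Cp * (CT + K * Ab) * 2 ^ ((20 * k0 + 2) * n : ℝ) := by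
        rw [show ((20 * (k0 : ℝ) + 2) * n) = 2 * n + 20 * k0 * n by ring, Real.rpow_add (by norm_num)]; ring

end Vale.Agent.P076.H780
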