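import Mathlib.Analysis.SpecialFunctions.Pow.Real
import Mathlib.Data.Finset.Card
import Mathlib.Data.Finset.Prod
import Mathlib.Data.Finset.Sigma

/-! # P076 / H780 : popular values (StPOP of H732/FinDefs, with `0 ≤ A₂ j`, `0 ≤ A₄ j`) -/

set_option autoImplicit false

namespace Vale.Agent.P076.H780

theorem fib {α δ : Type*} [DecidableEq δ] (T : Finset α) (g : α → δ) (A B : ℝ) (hB : 0 ≤ B) (h1 : ((T.image g).card : ℝ) ≤ A)
    (h2 : ∀ r ∈ T.image g, ((T.filter fun s => g s = r).card : ℝ) ≤ B) : (T.card : ℝ) ≤ A * B := by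
  have h := Finset.card_eq_sum_card_image g T
  have h' : (T.card : ℝ) = ∑ r ∈ T.image g, ((T.filter fun s => g s = r).card : ℝ) := by exact_mod_cast h
  rw [h']
  calc ∑ r ∈ T.image g, ((T.filter fun s => g s = r).card : ℝ) ≤ ∑ r ∈ T.image g, B := Finset.sum_le_sum h2
    _ = (T.image g).card * B := by rw [Finset.sum_const, nsmul_eq_mul]
    _ ≤ A * B := mul_le_mul_of_nonneg_right h1 hB

open Classical in
theorem sum_fibres {α : Type*} (S : Finset α) (x y : α → ℤ) (T : Finset ℤ) :
    ∑ a ∈ T, (((S.filter fun s => x s = a).image y).card : ℝ) ≤ ((S.image fun s => (x s, y s)).card : ℝ) := by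
  have h : ∑ a ∈ T, ((S.filter fun s => x s = a).image y).card ≤ (S.image fun s => (x s, y s)).card := by
    rw [← Finset.card_sigma]
    refine Finset.card_le_card_of_injOn (fun p : (_ : ℤ) × ℤ => (p.1, p.2)) ?_ ?_
    · intro p hp
      rw [Finset.mem_coe, Finset.mem_sigma, Finset.mem_image] at hp
      obtain ⟨_, s, hs, hs2⟩ := hp
      rw [Finset.mem_filter] at hs
      rw [Finset.mem_coe, Finset.mem_image]
      exact ⟨s, hs.1, by rw [hs.2, hs2]⟩
    · rintro ⟨a, b⟩ _ ⟨a', b'⟩ _ h
      simp only [Prod.mk.injEq] at h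
      obtain ⟨rfl, rfl⟩ := h
      rfl
  exact_mod_cast h

open Classical in
theorem pop1 {α : Type*} (S : Finset α) (x y z : α → ℤ) (κ lam M : ℝ) (hκ : 1 ≤ κ) (hlam : 0 < lam)
    (h3 : ∀ a b c : ℤ, ((S.filter fun s => x s = a ∧ y s = b ∧ z s = c).card : ℝ) ≤ κ)
    (hy : ((S.image fun s => (x s, y s)).card : ℝ) ≤ M) (hz : ((S.image fun s => (x s, z s)).card : ℝ) ≤ M) :
    ((S.filter fun s => ((S.filter fun s' => x s' = x s).card : ℝ) < lam).card : ℝ) ≤ Real.sqrt (lam * κ) * M := by
  set U := S.filter fun s => ((S.filter fun s' => x s' = x s).card : ℝ) < lam with hU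
  set n : ℤ → ℝ := fun a => ((S.filter fun s => x s = a).card : ℝ) with hn
  set Y : ℤ → ℝ := fun a => (((S.filter fun s => x s = a).image y).card : ℝ) with hY
  set Z : ℤ → ℝ := fun a => (((S.filter fun s => x s = a).image z).card : ℝ) with hZ
  have hκ0 : 0 ≤ κ := by linarith
  have hle : ∀ a, n a ≤ κ * (Y a * Z a) := by
    intro a
    have h := fib (S.filter fun s => x s = a) (fun s => (y s, z s)) (Y a * Z a) κ hκ0 ?_ ?_
    · rw [mul_comm] at h; exact h
    · rw [hY, hZ]
      simp only []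
      rw [← Nat.cast_mul, ← Finset.card_product]
      refine Nat.cast_le.2 (Finset.card_le_card ?_)
      intro p hp
      rw [Finset.mem_image] at hp
      obtain ⟨s, hs, rfl⟩ := hp
      rw [Finset.mem_product]
      exact ⟨Finset.mem_image_of_mem _ hs, Finset.mem_image_of_mem _ hs⟩
    · rintro ⟨b, c⟩ _
      refine le_trans ?_ (h3 a b c)
      refine Nat.cast_le.2 (Finset.card_le_card ?_)
      intro s hs
      rw [Finset.mem_filter, Finset.mem_filter] at hs
      rw [Finset.mem_filter]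
      have := hs.2
      simp only [Prod.mk.injEq] at this
      exact ⟨hs.1.1, hs.1.2, this.1, this.2⟩
  have hY0 : ∀ a, 0 ≤ Y a := fun a => Nat.cast_nonneg _
  have hZ0 : ∀ a, 0 ≤ Z a := fun a => Nat.cast_nonneg _
  have hn0 : ∀ a, 0 ≤ n a := fun a => Nat.cast_nonneg _
  have hkey : ∀ a, n a < lam → n a ≤ Real.sqrt (lam * κ) * ((Y a + Z a) / 2) := by
    intro a ha
    have h1 : n a ^ 2 ≤ (Real.sqrt (lam * κ) * ((Y a + Z a) / 2)) ^ 2 := by
      rw [mul_pow, Real.sq_sqrt (by positivity)]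
      have h2 : n a ^ 2 ≤ lam * (κ * (Y a * Z a)) := by
        rw [sq]; exact mul_le_mul ha.le (hle a) (hn0 a) hlam.le
      have h3 : Y a * Z a ≤ ((Y a + Z a) / 2) ^ 2 := by nlinarith [sq_nonneg (Y a - Z a)]
      calc n a ^ 2 ≤ lam * (κ * (Y a * Z a)) := h2
        _ ≤ lam * (κ * ((Y a + Z a) / 2) ^ 2) := by gcongr
        _ = _ := by ring
    exact le_of_sq_le_sq h1 (mul_nonneg (Real.sqrt_nonneg _) (by have := hY0 a; have := hZ0 a; linarith))
  have hUa : ∀ a ∈ U.image x, ((U.filter fun s => x s = a).card : ℝ) = n a ∧ n a < lam := by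
    intro a ha
    rw [Finset.mem_image] at ha
    obtain ⟨s, hs, rfl⟩ := ha
    rw [hU, Finset.mem_filter] at hs
    refine ⟨?_, hs.2⟩
    rw [hn]
    simp only []
    congr 2
    ext s'
    rw [Finset.mem_filter, Finset.mem_filter, Finset.mem_filter]
    constructor
    · rintro ⟨⟨h, _⟩, h'⟩; exact ⟨h, h'⟩
    · rintro ⟨h, h'⟩; exact ⟨⟨h, by rw [h']; exact hs.2⟩, h'⟩
  have hcard : (U.card : ℝ) = ∑ a ∈ U.image x, ((U.filter fun s => x s = a).card : ℝ) := by
    exact_mod_cast Finset.card_eq_sum_card_image x U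
  rw [hcard]
  calc ∑ a ∈ U.image x, ((U.filter fun s => x s = a).card : ℝ)
      ≤ ∑ a ∈ U.image x, Real.sqrt (lam * κ) * ((Y a + Z a) / 2) :=
        Finset.sum_le_sum fun a ha => by rw [(hUa a ha).1]; exact hkey a (hUa a ha).2
    _ = Real.sqrt (lam * κ) * ((∑ a ∈ U.image x, Y a + ∑ a ∈ U.image x, Z a) / 2) := by
        simp only [div_eq_mul_inv]
        rw [← Finset.mul_sum, ← Finset.sum_mul, Finset.sum_add_distrib]
    _ ≤ Real.sqrt (lam * κ) * ((M + M) / 2) := by
        have a1 := (sum_fibres S x y (U.image x)).trans hy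
        have a2 := (sum_fibres S x z (U.image x)).trans hz
        have := Real.sqrt_nonneg (lam * κ)
        gcongr
    _ = _ := by ring

open Classical in
/-- **[POP]** with `0 ≤ A₂ j`, `0 ≤ A₄ j` -/
theorem pop {α β γ : Type*} (S : Finset α) (N : ℕ) (x y z : α → ℤ) (f : ℕ → α → β) (xc : ℕ → ℤ → ℤ) (q : ℕ → α → γ)
    (κ lam M : ℝ) (A₁ A₂ A₃ A₄ : ℕ → ℝ) (hκ : 1 ≤ κ) (hlam : 0 < lam)
    (h3 : ∀ a b c : ℤ, ((S.filter fun s => x s = a ∧ y s = b ∧ z s = c).card : ℝ) ≤ κ)
    (hy : ((S.image fun s => (x s, y s)).card : ℝ) ≤ M) (hz : ((S.image fun s => (x s, z s)).card : ℝ) ≤ M)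
    (hA₂ : ∀ j ≤ N, 0 ≤ A₂ j) (hA₄ : ∀ j ≤ N, 0 ≤ A₄ j)
    (c1 : ∀ j ≤ N, ((S.image (f j)).card : ℝ) ≤ A₁ j)
    (c2 : ∀ j ≤ N, ∀ c, ((S.filter fun s => f j s = c).card : ℝ) ≤ A₂ j)
    (c3 : ∀ j ≤ N, ((S.image (q j)).card : ℝ) ≤ A₃ j)
    (c4 : ∀ j ≤ N, ∀ c, (((S.filter fun s => f j s = c).image (q N)).card : ℝ) ≤ A₄ j)
    (m1 : ∀ j ≤ N, ∀ c, (((S.filter fun s => f j s = c).image fun s => xc j (x s)).card : ℝ) ≤ κ)
    (m2 : ∀ j ≤ N, ∀ a r, (((S.filter fun s => xc j (x s) = a ∧ q j s = r).image (f j)).card : ℝ) ≤ κ)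
    (m3 : ∀ a r, ((S.filter fun s => x s = a ∧ q N s = r).card : ℝ) ≤ κ) :
    ((S.filter fun s => ((S.filter fun s' => x s' = x s).card : ℝ) < lam).card : ℝ) ≤ Real.sqrt (lam * κ) * M ∧
    (∀ j ≤ N, ∀ c, (((S.image x).filter fun a => lam ≤ ((S.filter fun s => x s = a).card : ℝ) ∧ xc j a = c).card : ℝ) * lam ≤
      κ * A₃ j * A₂ j) ∧
    (∀ j ≤ N, ((((S.image x).filter fun a => lam ≤ ((S.filter fun s => x s = a).card : ℝ)).image (xc j)).card : ℝ) * lam ≤
      κ ^ 2 * A₄ j * A₁ j) := by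
  have hκ0 : 0 ≤ κ := by linarith
  refine ⟨pop1 S x y z κ lam M hκ hlam h3 hy hz, ?_, ?_⟩
  · intro j hj c
    set V := (S.image x).filter fun a => lam ≤ ((S.filter fun s => x s = a).card : ℝ) ∧ xc j a = c with hV
    set T := S.filter fun s => xc j (x s) = c with hT
    -- the popular fibres are disjoint parts of `T`
    have h1 : (V.card : ℝ) * lam ≤ T.card := by
      have e1 : (T.card : ℝ) = ∑ a ∈ T.image x, ((T.filter fun s => x s = a).card : ℝ) := by
        exact_mod_cast Finset.card_eq_sum_card_image x T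
      rw [e1]
      calc (V.card : ℝ) * lam = ∑ a ∈ V, lam := by rw [Finset.sum_const, nsmul_eq_mul]
        _ ≤ ∑ a ∈ V, ((T.filter fun s => x s = a).card : ℝ) := by
            refine Finset.sum_le_sum fun a ha => ?_
            rw [hV, Finset.mem_filter] at ha
            refine ha.2.1.trans (Nat.cast_le.2 (Finset.card_le_card ?_))
            intro s hs
            rw [Finset.mem_filter] at hs
            rw [Finset.mem_filter, hT, Finset.mem_filter]
            exact ⟨⟨hs.1, by rw [hs.2]; exact ha.2.2⟩, hs.2⟩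
        _ ≤ ∑ a ∈ T.image x, ((T.filter fun s => x s = a).card : ℝ) := by
            refine Finset.sum_le_sum_of_subset_of_nonneg ?_ fun a _ _ => Nat.cast_nonneg _
            intro a ha
            rw [hV, Finset.mem_filter, Finset.mem_image] at ha
            obtain ⟨⟨s, hs, rfl⟩, _, hc⟩ := ha
            rw [Finset.mem_image]
            exact ⟨s, by rw [hT, Finset.mem_filter]; exact ⟨hs, hc⟩, rfl⟩
    refine h1.trans ?_
    have h2 := fib T (q j) (A₃ j) (κ * A₂ j) (mul_nonneg hκ0 (hA₂ j hj)) ?_ ?_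
    · calc (T.card : ℝ) ≤ A₃ j * (κ * A₂ j) := h2
        _ = _ := by ring
    · refine le_trans (Nat.cast_le.2 (Finset.card_le_card ?_)) (c3 j hj)
      exact Finset.image_subset_image (Finset.filter_subset _ _)
    · intro r _
      refine fib _ (f j) κ (A₂ j) (hA₂ j hj) ?_ ?_
      · refine le_trans (Nat.cast_le.2 (Finset.card_le_card ?_)) (m2 j hj c r)
        refine Finset.image_subset_image ?_
        intro s hs
        rw [Finset.mem_filter, hT, Finset.mem_filter] at hs
        rw [Finset.mem_filter]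
        exact ⟨hs.1.1, hs.1.2, hs.2⟩
      · intro b _
        refine le_trans (Nat.cast_le.2 (Finset.card_le_card ?_)) (c2 j hj b)
        intro s hs
        rw [Finset.mem_filter, Finset.mem_filter, hT, Finset.mem_filter] at hs
        rw [Finset.mem_filter]
        exact ⟨hs.1.1.1, hs.2⟩
  · intro j hj
    set V := (S.image x).filter fun a => lam ≤ ((S.filter fun s => x s = a).card : ℝ) with hV
    have hpick : ∀ b ∈ V.image (xc j), ∃ a ∈ V, xc j a = b := fun b hb => Finset.mem_image.1 hb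
    choose! pk hpk hpk2 using hpick
    set T := S.filter fun s => xc j (x s) ∈ V.image (xc j) ∧ x s = pk (xc j (x s)) with hT
    have h1 : ((V.image (xc j)).card : ℝ) * lam ≤ T.card := by
      have e1 : (T.card : ℝ) = ∑ b ∈ T.image (fun s => xc j (x s)), ((T.filter fun s => xc j (x s) = b).card : ℝ) := by
        exact_mod_cast Finset.card_eq_sum_card_image (fun s => xc j (x s)) T
      rw [e1]
      calc ((V.image (xc j)).card : ℝ) * lam = ∑ b ∈ V.image (xc j), lam := by rw [Finset.sum_const, nsmul_eq_mul]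
        _ ≤ ∑ b ∈ V.image (xc j), ((T.filter fun s => xc j (x s) = b).card : ℝ) := by
            refine Finset.sum_le_sum fun b hb => ?_
            have hv := hpk b hb
            rw [hV, Finset.mem_filter] at hv
            refine hv.2.trans (Nat.cast_le.2 (Finset.card_le_card ?_))
            intro s hs
            rw [Finset.mem_filter] at hs
            have hb2 := hpk2 b hb
            rw [Finset.mem_filter, hT, Finset.mem_filter, hs.2, hb2]
            exact ⟨⟨hs.1, hb, rfl⟩, rfl⟩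
        _ ≤ ∑ b ∈ T.image (fun s => xc j (x s)), ((T.filter fun s => xc j (x s) = b).card : ℝ) := by
            refine Finset.sum_le_sum_of_subset_of_nonneg ?_ fun a _ _ => Nat.cast_nonneg _
            intro b hb
            have hv := hpk b hb
            have hb2 := hpk2 b hb
            rw [hV, Finset.mem_filter, Finset.mem_image] at hv
            obtain ⟨⟨s, hs, hsx⟩, _⟩ := hv
            rw [Finset.mem_image]
            refine ⟨s, ?_, by rw [hsx, hb2]⟩
            rw [hT, Finset.mem_filter, hsx, hb2]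
            exact ⟨hs, hb, rfl⟩
    refine h1.trans ?_
    have h2 := fib T (f j) (A₁ j) (κ * (A₄ j * κ)) (mul_nonneg hκ0 (mul_nonneg (hA₄ j hj) hκ0)) ?_ ?_
    · calc (T.card : ℝ) ≤ A₁ j * (κ * (A₄ j * κ)) := h2
        _ = _ := by ring
    · refine le_trans (Nat.cast_le.2 (Finset.card_le_card ?_)) (c1 j hj)
      exact Finset.image_subset_image (Finset.filter_subset _ _)
    · intro c _
      refine fib _ (fun s => xc j (x s)) κ (A₄ j * κ) (mul_nonneg (hA₄ j hj) hκ0) ?_ ?_
      · refine le_trans (Nat.cast_le.2 (Finset.card_le_card ?_)) (m1 j hj c)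
        refine Finset.image_subset_image ?_
        intro s hs
        rw [Finset.mem_filter, hT, Finset.mem_filter] at hs
        rw [Finset.mem_filter]
        exact ⟨hs.1.1, hs.2⟩
      · intro b _
        refine fib _ (q N) (A₄ j) κ hκ0 ?_ ?_
        · refine le_trans (Nat.cast_le.2 (Finset.card_le_card ?_)) (c4 j hj c)
          refine Finset.image_subset_image ?_
          intro s hs
          rw [Finset.mem_filter, Finset.mem_filter, hT, Finset.mem_filter] at hs
          rw [Finset.mem_filter]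
          exact ⟨hs.1.1.1, hs.1.2⟩
        · intro r _
          refine le_trans (Nat.cast_le.2 (Finset.card_le_card ?_)) (m3 (pk b) r)
          intro s hs
          rw [Finset.mem_filter, Finset.mem_filter, Finset.mem_filter, hT, Finset.mem_filter] at hs
          obtain ⟨⟨⟨⟨hs1, _, hs2⟩, _⟩, hs3⟩, hs4⟩ := hs
          rw [Finset.mem_filter]
          exact ⟨hs1, by rw [hs2, hs3], hs4⟩

end Vale.Agent.P076.H780
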